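import Vale.Agent.P355.H349.Design

/-! The positivity of the complement of the diagonal algebras of a family of mutually unbiased
bases: for `n` mutually unbiased bases of `ℂ⁶` the traceless diagonal parts are pairwise orthogonal,
so Bessel's inequality gives, for every matrix `X`,
`‖X‖² + ((n - 1) / 6) |tr X|² - ∑ u, |⟨u|X|u⟩|² ≥ 0`. -/

namespace Vale.Agent.P355.H57

open Finset Matrix Vale.Agent.P355 Vale.Agent.P355.H349

variable {n : ℕ}

/-- `⟨u| X |u⟩`. -/
def dg (B : Fin n → M6) (X : M6) (u : Fin n × Fin 6) : ℂ :=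
  ∑ r, ∑ s, star (vec B u r) * X r s * vec B u s

/-- trace. -/
def tc (X : M6) : ℂ := ∑ r, X r r

/-- the projection to the complement. -/
noncomputable def PE (B : Fin n → M6) (X : M6) : M6 := fun r s =>
  X r s + ((n : ℂ) - 1) / 6 * tc X * dl r s
    - ∑ u, dg B X u * (vec B u r * star (vec B u s))

theorem res_id {B : Fin n → M6} (hB : IsMUBs B) (j : Fin n) (r s : Fin 6) :
    ∑ k, vec B (j, k) r * star (vec B (j, k) s) = dl r s :=
  unitary_rows' (hB.1 j) r s
where
  unitary_rows' {A : M6} (h : Unitary6 A) (p r : Fin 6) :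
      ∑ k, A p k * star (A r k) = dl p r := by
    have h1 : A * Aᴴ = 1 := mul_eq_one_comm.1 h
    have h2 := congrFun (congrFun h1 p) r
    simp only [Matrix.mul_apply, Matrix.conjTranspose_apply, Matrix.one_apply] at h2
    exact h2

theorem sum_dg {B : Fin n → M6} (hB : IsMUBs B) (X : M6) (j : Fin n) :
    ∑ k, dg B X (j, k) = tc X := by
  unfold dg tc
  calc ∑ k, ∑ r, ∑ s, star (vec B (j, k) r) * X r s * vec B (j, k) s
      = ∑ r, ∑ s, X r s * ∑ k, vec B (j, k) s * star (vec B (j, k) r) := by
        rw [Finset.sum_comm]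
        refine Finset.sum_congr rfl fun r _ => ?_
        rw [Finset.sum_comm]
        refine Finset.sum_congr rfl fun s _ => ?_
        rw [Finset.mul_sum]
        exact Finset.sum_congr rfl fun k _ => by ring
    _ = ∑ r, X r r := by
        refine Finset.sum_congr rfl fun r _ => ?_
        simp only [res_id hB j, dl_symm _ r]
        exact sum_dl' (fun s => X r s) r


theorem star_dg (B : Fin n → M6) (X : M6) (u : Fin n × Fin 6) :
    star (dg B X u) = ∑ r, ∑ s, star (X r s) * (vec B u r * star (vec B u s)) := by
  unfold dg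
  rw [star_sum]
  refine Finset.sum_congr rfl fun r _ => ?_
  rw [star_sum]
  refine Finset.sum_congr rfl fun s _ => ?_
  simp only [star_mul', star_star]
  ring

theorem star_ip' (B : Fin n → M6) (u v : Fin n × Fin 6) : star (ip B u v) = ip B v u := by
  unfold ip
  rw [star_sum]
  exact Finset.sum_congr rfl fun r _ => by rw [star_mul', star_star, mul_comm]

/-- the matrix `∑ u, ⟨u|X|u⟩ |u⟩⟨u|`. -/
noncomputable def DD (B : Fin n → M6) (X : M6) (r s : Fin 6) : ℂ :=
  ∑ u, dg B X u * (vec B u r * star (vec B u s))

theorem sum_X_DD (B : Fin n → M6) (X : M6) :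
    ∑ r, ∑ s, star (X r s) * DD B X r s = ∑ u, star (dg B X u) * dg B X u := by
  unfold DD
  calc ∑ r, ∑ s, star (X r s) * ∑ u, dg B X u * (vec B u r * star (vec B u s))
      = ∑ r, ∑ s, ∑ u, dg B X u * (star (X r s) * (vec B u r * star (vec B u s))) := by
        refine Finset.sum_congr rfl fun r _ => Finset.sum_congr rfl fun s _ => ?_
        rw [Finset.mul_sum]
        exact Finset.sum_congr rfl fun u _ => by ring
    _ = ∑ r, ∑ u, ∑ s, dg B X u * (star (X r s) * (vec B u r * star (vec B u s))) :=
        Finset.sum_congr rfl fun r _ => Finset.sum_comm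
    _ = ∑ u, ∑ r, ∑ s, dg B X u * (star (X r s) * (vec B u r * star (vec B u s))) :=
        Finset.sum_comm
    _ = _ := by
        refine Finset.sum_congr rfl fun u _ => ?_
        rw [star_dg, mul_comm (∑ r, _) _, Finset.mul_sum]
        exact Finset.sum_congr rfl fun r _ => by rw [Finset.mul_sum]

theorem sum_DD_diag {B : Fin n → M6} (hB : IsMUBs B) (X : M6) :
    ∑ r, DD B X r r = n * tc X := by
  unfold DD
  calc ∑ r, ∑ u, dg B X u * (vec B u r * star (vec B u r))
      = ∑ u, dg B X u * ip B u u := by
        rw [Finset.sum_comm]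
        refine Finset.sum_congr rfl fun u _ => ?_
        unfold ip
        rw [Finset.mul_sum]
        exact Finset.sum_congr rfl fun r _ => by ring
    _ = ∑ j : Fin n, ∑ k, dg B X (j, k) := by
        rw [Fintype.sum_prod_type]
        refine Finset.sum_congr rfl fun j _ => Finset.sum_congr rfl fun k _ => ?_
        rw [ip_same hB, dl_self, mul_one]
    _ = n * tc X := by
        simp only [sum_dg hB]
        simp

theorem sum_DD_DD (B : Fin n → M6) (X : M6) :
    ∑ r, ∑ s, star (DD B X r s) * DD B X r s
      = ∑ u, ∑ v, star (dg B X u) * dg B X v * (star (ip B u v) * ip B u v) := by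
  unfold DD
  calc ∑ r, ∑ s, star (∑ u, dg B X u * (vec B u r * star (vec B u s)))
          * ∑ v, dg B X v * (vec B v r * star (vec B v s))
      = ∑ r, ∑ s, ∑ u, ∑ v, star (dg B X u) * dg B X v *
          ((star (vec B u r) * vec B v r) * (vec B u s * star (vec B v s))) := by
        refine Finset.sum_congr rfl fun r _ => Finset.sum_congr rfl fun s _ => ?_
        rw [star_sum, Finset.sum_mul_sum]
        refine Finset.sum_congr rfl fun u _ => Finset.sum_congr rfl fun v _ => ?_
        simp only [star_mul', star_star]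
        ring
    _ = ∑ r, ∑ u, ∑ s, ∑ v, star (dg B X u) * dg B X v *
          ((star (vec B u r) * vec B v r) * (vec B u s * star (vec B v s))) :=
        Finset.sum_congr rfl fun r _ => Finset.sum_comm
    _ = ∑ u, ∑ r, ∑ s, ∑ v, star (dg B X u) * dg B X v *
          ((star (vec B u r) * vec B v r) * (vec B u s * star (vec B v s))) :=
        Finset.sum_comm
    _ = ∑ u, ∑ v, ∑ r, ∑ s, star (dg B X u) * dg B X v *
          ((star (vec B u r) * vec B v r) * (vec B u s * star (vec B v s))) := by
        refine Finset.sum_congr rfl fun u _ => ?_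
        rw [Finset.sum_comm]
        rw [show (∑ v, ∑ r, ∑ s, star (dg B X u) * dg B X v *
          ((star (vec B u r) * vec B v r) * (vec B u s * star (vec B v s))))
          = ∑ v, ∑ s, ∑ r, star (dg B X u) * dg B X v *
          ((star (vec B u r) * vec B v r) * (vec B u s * star (vec B v s))) from
          Finset.sum_congr rfl fun v _ => Finset.sum_comm]
        rw [Finset.sum_comm (s := (Finset.univ : Finset (Fin n × Fin 6)))]
        exact Finset.sum_congr rfl fun s _ => Finset.sum_comm
    _ = _ := by
        refine Finset.sum_congr rfl fun u _ => Finset.sum_congr rfl fun v _ => ?_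
        rw [star_ip']
        simp only [← Finset.mul_sum]
        unfold ip
        have e : ∀ s, vec B u s * star (vec B v s) = star (vec B v s) * vec B u s :=
          fun s => mul_comm _ _
        simp only [e, ← Finset.sum_mul]
        ring

theorem sum_ip_sq {B : Fin n → M6} (hB : IsMUBs B) (X : M6) :
    ∑ u, ∑ v, star (dg B X u) * dg B X v * (star (ip B u v) * ip B u v)
      = ∑ u, star (dg B X u) * dg B X u
        + (n : ℂ) * ((n : ℂ) - 1) / 6 * (star (tc X) * tc X) := by
  have key : ∀ i j : Fin n, ∑ k, ∑ l, star (dg B X (i, k)) * dg B X (j, l)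
      * (star (ip B (i, k) (j, l)) * ip B (i, k) (j, l))
      = if i = j then ∑ k, star (dg B X (i, k)) * dg B X (i, k)
        else 1 / 6 * (star (tc X) * tc X) := by
    intro i j
    split_ifs with h
    · subst h
      refine Finset.sum_congr rfl fun k _ => ?_
      rw [Finset.sum_eq_single k]
      · rw [ip_same hB, dl_self]; simp
      · intro l _ hl
        rw [ip_same hB]
        have : dl k l = 0 := by unfold dl; rw [if_neg (Ne.symm hl)]
        rw [this]; simp
      · intro h; exact absurd (Finset.mem_univ _) h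
    · calc _ = ∑ k, ∑ l, star (dg B X (i, k)) * dg B X (j, l) * (1 / 6) := by
            refine Finset.sum_congr rfl fun k _ => Finset.sum_congr rfl fun l _ => ?_
            rw [ip_diff hB h]
        _ = _ := by
            rw [← sum_dg hB X i]
            conv_rhs => rw [sum_dg hB X i, ← sum_dg hB X j]
            have : star (tc X) = ∑ k, star (dg B X (i, k)) := by
              rw [← sum_dg hB X i, star_sum]
            rw [sum_dg hB X j, this]
            rw [← sum_dg hB X j, Finset.sum_mul_sum, Finset.mul_sum]
            refine Finset.sum_congr rfl fun k _ => ?_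
            rw [Finset.mul_sum]
            exact Finset.sum_congr rfl fun l _ => by ring
  rw [Fintype.sum_prod_type]
  have h1 : ∀ i : Fin n, ∑ k, ∑ v : Fin n × Fin 6, star (dg B X (i, k)) * dg B X v
      * (star (ip B (i, k) v) * ip B (i, k) v)
      = ∑ j, ∑ k, ∑ l, star (dg B X (i, k)) * dg B X (j, l)
      * (star (ip B (i, k) (j, l)) * ip B (i, k) (j, l)) := by
    intro i
    rw [Finset.sum_comm]
    rw [Fintype.sum_prod_type]
    exact Finset.sum_congr rfl fun j _ => Finset.sum_comm
  simp only [h1, key]
  rw [Fintype.sum_prod_type]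
  have h2 : ∀ i : Fin n, (∑ j : Fin n, if i = j then ∑ k, star (dg B X (i, k)) * dg B X (i, k)
        else 1 / 6 * (star (tc X) * tc X))
      = ∑ k, star (dg B X (i, k)) * dg B X (i, k)
        + ((n : ℂ) - 1) * (1 / 6 * (star (tc X) * tc X)) := by
    intro i
    have h3 : ∀ j : Fin n, (if i = j then ∑ k, star (dg B X (i, k)) * dg B X (i, k)
        else 1 / 6 * (star (tc X) * tc X))
        = (1 / 6 * (star (tc X) * tc X)) + if i = j then
          (∑ k, star (dg B X (i, k)) * dg B X (i, k)) - 1 / 6 * (star (tc X) * tc X) else 0 := by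
      intro j
      split_ifs <;> ring
    simp only [h3, Finset.sum_add_distrib, Finset.sum_ite_eq, Finset.mem_univ, if_true,
      Finset.sum_const, Finset.card_univ, Fintype.card_fin, nsmul_eq_mul]
    ring
  simp only [h2, Finset.sum_add_distrib, Finset.sum_const, Finset.card_univ, Fintype.card_fin,
    nsmul_eq_mul]
  ring

/-- **Bessel's inequality as an identity**. -/
theorem norm_PE {B : Fin n → M6} (hB : IsMUBs B) (X : M6) :
    ∑ r, ∑ s, star (PE B X r s) * PE B X r s
      = ∑ r, ∑ s, star (X r s) * X r s
        + ((n : ℂ) - 1) / 6 * (star (tc X) * tc X)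
        - ∑ u, star (dg B X u) * dg B X u := by
  have hX := sum_X_DD B X
  have hX' : ∑ r, ∑ s, star (DD B X r s) * X r s = ∑ u, star (dg B X u) * dg B X u := by
    have := congrArg star hX
    simp only [star_sum, star_mul', star_star] at this
    calc _ = ∑ r, ∑ s, X r s * star (DD B X r s) :=
          Finset.sum_congr rfl fun r _ => Finset.sum_congr rfl fun s _ => mul_comm _ _
      _ = ∑ u, dg B X u * star (dg B X u) := this
      _ = _ := Finset.sum_congr rfl fun u _ => mul_comm _ _
  have hD := (sum_DD_DD B X).trans (sum_ip_sq hB X)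
  have hT := sum_DD_diag hB X
  have hT' : ∑ r, star (DD B X r r) = n * star (tc X) := by
    have := congrArg star hT
    simpa [star_sum, star_mul'] using this
  have hTX : ∑ r, star (X r r) = star (tc X) := by unfold tc; rw [star_sum]
  have hn : star ((n : ℂ)) = (n : ℂ) := by simp
  have e : ∀ r s, star (PE B X r s) * PE B X r s
      = star (X r s) * X r s
        + ((n : ℂ) - 1) / 6 * star (tc X) * (((n : ℂ) - 1) / 6 * tc X) * dl r s
        + star (DD B X r s) * DD B X r s
        + ((n : ℂ) - 1) / 6 * tc X * (dl r s * star (X r s))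
        + ((n : ℂ) - 1) / 6 * star (tc X) * (dl r s * X r s)
        - star (X r s) * DD B X r s - star (DD B X r s) * X r s
        - ((n : ℂ) - 1) / 6 * tc X * (dl r s * star (DD B X r s))
        - ((n : ℂ) - 1) / 6 * star (tc X) * (dl r s * DD B X r s) := by
    intro r s
    have h1 : star (PE B X r s) = star (X r s) + ((n : ℂ) - 1) / 6 * star (tc X) * dl r s
        - star (DD B X r s) := by
      unfold PE DD
      simp only [star_sub, star_add, star_mul', star_dl, star_div₀, hn, star_one]
      simp
    have h2 : PE B X r s = X r s + ((n : ℂ) - 1) / 6 * tc X * dl r s - DD B X r s := rfl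
    have h3 : dl r s * dl r s = dl r s := by unfold dl; split_ifs <;> simp
    rw [h1, h2]
    linear_combination (((n : ℂ) - 1) / 6 * star (tc X) * (((n : ℂ) - 1) / 6 * tc X)) * h3
  simp only [e, Finset.sum_add_distrib, Finset.sum_sub_distrib, ← Finset.mul_sum, sum_dl]
  have h6 : ∑ r : Fin 6, ∑ s : Fin 6, dl r s = 6 := by
    have : ∀ r : Fin 6, ∑ s : Fin 6, dl r s = 1 := fun r => by simp [dl]
    simp [this]
  rw [h6, hX, hX', hD, hTX, hT, hT', show (∑ r, X r r) = tc X from rfl]
  ring


/-- the operator `∑ F, c F |y F⟩⟨x F|`. -/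
noncomputable def opF (B : Fin n → M6) {ι : Type} [Fintype ι] (c : ι → ℂ)
    (y x : ι → Fin n × Fin 6) : M6 :=
  fun r s => ∑ F, c F * (vec B (y F) r * star (vec B (x F) s))

theorem tc_opF (B : Fin n → M6) {ι : Type} [Fintype ι] (c : ι → ℂ) (y x : ι → Fin n × Fin 6) :
    tc (opF B c y x) = ∑ F, c F * ip B (x F) (y F) := by
  unfold tc opF ip
  rw [Finset.sum_comm]
  refine Finset.sum_congr rfl fun F _ => ?_
  rw [Finset.mul_sum]
  exact Finset.sum_congr rfl fun r _ => by ring

theorem dg_opF (B : Fin n → M6) {ι : Type} [Fintype ι] (c : ι → ℂ) (y x : ι → Fin n × Fin 6)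
    (u : Fin n × Fin 6) :
    dg B (opF B c y x) u = ∑ F, c F * (ip B u (y F) * ip B (x F) u) := by
  unfold dg opF
  calc _ = ∑ r, ∑ s, ∑ F, c F * ((star (vec B u r) * vec B (y F) r)
        * (star (vec B (x F) s) * vec B u s)) := by
        refine Finset.sum_congr rfl fun r _ => Finset.sum_congr rfl fun s _ => ?_
        rw [Finset.mul_sum, Finset.sum_mul]
        exact Finset.sum_congr rfl fun F _ => by ring
    _ = ∑ F, ∑ r, ∑ s, c F * ((star (vec B u r) * vec B (y F) r)
        * (star (vec B (x F) s) * vec B u s)) := by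
        rw [show (∑ r, ∑ s, ∑ F, c F * ((star (vec B u r) * vec B (y F) r)
          * (star (vec B (x F) s) * vec B u s))) = ∑ r, ∑ F, ∑ s, c F * ((star (vec B u r)
          * vec B (y F) r) * (star (vec B (x F) s) * vec B u s)) from
          Finset.sum_congr rfl fun r _ => Finset.sum_comm]
        exact Finset.sum_comm
    _ = _ := by
        refine Finset.sum_congr rfl fun F _ => ?_
        simp only [← Finset.mul_sum]
        congr 1
        unfold ip
        rw [Finset.sum_mul]

theorem norm_opF (B : Fin n → M6) {ι : Type} [Fintype ι] (c : ι → ℂ) (y x : ι → Fin n × Fin 6) :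
    ∑ r, ∑ s, star (opF B c y x r s) * opF B c y x r s
      = ∑ F, ∑ G, star (c F) * c G * (ip B (x G) (x F) * ip B (y F) (y G)) := by
  unfold opF
  calc _ = ∑ r, ∑ s, ∑ F, ∑ G, star (c F) * c G * ((star (vec B (x G) s) * vec B (x F) s)
        * (star (vec B (y F) r) * vec B (y G) r)) := by
        refine Finset.sum_congr rfl fun r _ => Finset.sum_congr rfl fun s _ => ?_
        rw [star_sum, Finset.sum_mul_sum]
        refine Finset.sum_congr rfl fun F _ => Finset.sum_congr rfl fun G _ => ?_
        simp only [star_mul', star_star]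
        ring
    _ = ∑ p : Fin 6 × Fin 6, ∑ q : ι × ι, star (c q.1) * c q.2 *
        ((star (vec B (x q.2) p.2) * vec B (x q.1) p.2)
        * (star (vec B (y q.1) p.1) * vec B (y q.2) p.1)) := by
        rw [Fintype.sum_prod_type]
        exact Finset.sum_congr rfl fun r _ => Finset.sum_congr rfl fun s _ => by
          rw [Fintype.sum_prod_type]
    _ = ∑ q : ι × ι, ∑ p : Fin 6 × Fin 6, star (c q.1) * c q.2 *
        ((star (vec B (x q.2) p.2) * vec B (x q.1) p.2)
        * (star (vec B (y q.1) p.1) * vec B (y q.2) p.1)) := Finset.sum_comm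
    _ = _ := by
        rw [Fintype.sum_prod_type]
        refine Finset.sum_congr rfl fun F _ => Finset.sum_congr rfl fun G _ => ?_
        rw [← Finset.mul_sum, Fintype.sum_prod_type]
        congr 1
        unfold ip
        rw [mul_comm, Finset.sum_mul_sum]
        exact Finset.sum_congr rfl fun r _ => Finset.sum_congr rfl fun s _ => by ring

/-- **The E-sector Gram form** of a finite family of operators `|y F⟩⟨x F|` is positive. -/
theorem esec_nonneg {B : Fin n → M6} (hB : IsMUBs B) {ι : Type} [Fintype ι] (c : ι → ℂ)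
    (y x : ι → Fin n × Fin 6) :
    0 ≤ (∑ F, ∑ G, star (c F) * c G * (ip B (x G) (x F) * ip B (y F) (y G)
      + ((n : ℂ) - 1) / 6 * (ip B (x G) (y G) * ip B (y F) (x F))
      - ∑ u, (ip B (x G) u * ip B u (y G)) * (ip B (y F) u * ip B u (x F)))).re := by
  have h := norm_PE hB (opF B c y x)
  have h0 : 0 ≤ (∑ r, ∑ s, star (PE B (opF B c y x) r s) * PE B (opF B c y x) r s).re := by
    rw [Complex.re_sum]
    refine Finset.sum_nonneg fun r _ => ?_
    rw [Complex.re_sum]
    refine Finset.sum_nonneg fun s _ => ?_
    rw [normSq_star_mul, Complex.ofReal_re]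
    exact Complex.normSq_nonneg _
  rw [h, norm_opF, tc_opF] at h0
  have h1 : star (∑ F, c F * ip B (x F) (y F)) * ∑ G, c G * ip B (x G) (y G)
      = ∑ F, ∑ G, star (c F) * c G * (ip B (x G) (y G) * ip B (y F) (x F)) := by
    rw [star_sum, Finset.sum_mul_sum]
    refine Finset.sum_congr rfl fun F _ => Finset.sum_congr rfl fun G _ => ?_
    rw [star_mul', star_ip']
    ring
  have h2 : ∑ u, star (dg B (opF B c y x) u) * dg B (opF B c y x) u
      = ∑ F, ∑ G, star (c F) * c G *
        ∑ u, (ip B (x G) u * ip B u (y G)) * (ip B (y F) u * ip B u (x F)) := by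
    calc _ = ∑ u, ∑ F, ∑ G, star (c F) * c G *
        ((ip B (x G) u * ip B u (y G)) * (ip B (y F) u * ip B u (x F))) := by
          refine Finset.sum_congr rfl fun u _ => ?_
          rw [dg_opF, star_sum, Finset.sum_mul_sum]
          refine Finset.sum_congr rfl fun F _ => Finset.sum_congr rfl fun G _ => ?_
          simp only [star_mul', star_ip']
          ring
      _ = ∑ F, ∑ u, ∑ G, star (c F) * c G *
        ((ip B (x G) u * ip B u (y G)) * (ip B (y F) u * ip B u (x F))) := Finset.sum_comm
      _ = _ := by
          refine Finset.sum_congr rfl fun F _ => ?_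
          rw [Finset.sum_comm]
          exact Finset.sum_congr rfl fun G _ => by rw [Finset.mul_sum]
  rw [h1, h2] at h0
  convert h0 using 2
  simp only [mul_add, mul_sub, Finset.sum_add_distrib, Finset.sum_sub_distrib, Finset.mul_sum]
  congr 1
  congr 1
  refine Finset.sum_congr rfl fun F _ => Finset.sum_congr rfl fun G _ => ?_
  ring

/-- **The vector-valued Gram form**: the Gram matrix of the vectors `|x F⟩` is positive. -/
theorem vec_nonneg (B : Fin n → M6) {ι : Type} [Fintype ι] (c : ι → ℂ) (x : ι → Fin n × Fin 6) :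
    0 ≤ (∑ F, ∑ G, star (c F) * c G * ip B (x F) (x G)).re := by
  have h : ∑ F, ∑ G, star (c F) * c G * ip B (x F) (x G)
      = ∑ r, star (∑ F, c F * vec B (x F) r) * ∑ G, c G * vec B (x G) r := by
    unfold ip
    calc _ = ∑ F, ∑ r, ∑ G, star (c F) * c G * (star (vec B (x F) r) * vec B (x G) r) := by
          refine Finset.sum_congr rfl fun F _ => ?_
          rw [Finset.sum_comm]
          exact Finset.sum_congr rfl fun G _ => by rw [Finset.mul_sum]
      _ = ∑ r, ∑ F, ∑ G, star (c F) * c G * (star (vec B (x F) r) * vec B (x G) r) :=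
          Finset.sum_comm
      _ = _ := by
          refine Finset.sum_congr rfl fun r _ => ?_
          rw [star_sum, Finset.sum_mul_sum]
          refine Finset.sum_congr rfl fun F _ => Finset.sum_congr rfl fun G _ => ?_
          rw [star_mul']
          ring
  rw [h, Complex.re_sum]
  refine Finset.sum_nonneg fun r _ => ?_
  rw [normSq_star_mul, Complex.ofReal_re]
  exact Complex.normSq_nonneg _

end Vale.Agent.P355.H57
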